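import Vale.Agent.P235.H830.QDefs
import Vale.Agent.P235.K5.W.H531.Dich
import Vale.Agent.P235.K5.H12.Int

/-!
P235, line XC (helper531): excluding a graph drawn with one crossing. Literals.
-/

set_option autoImplicit false

namespace Vale.Agent.P235.XC

open SimpleGraph Vale.Agent.P235.H134 Vale.Agent.P235.H56 Vale.Agent.P235.K5
open Vale.Agent.P235.H830 (nbr)
open Vale.Agent.P235.K5.W.H531 (Con Tch)

/-- `K_5` -/
abbrev K5g : SimpleGraph (Fin 5) := ⊤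

/-- the `r × r` grid, a vertex joined to the first and the last row, and a vertex joined to the
first and the last column -/
def TX (r : ℕ) : SimpleGraph (Fin 2 ⊕ (Fin r × Fin r)) :=
  SimpleGraph.fromRel fun u v =>
    (∃ x : Fin r × Fin r, (x.1.val = 0 ∨ x.1.val + 1 = r) ∧ u = Sum.inl 0 ∧ v = Sum.inr x) ∨
    (∃ x : Fin r × Fin r, (x.2.val = 0 ∨ x.2.val + 1 = r) ∧ u = Sum.inl 1 ∧ v = Sum.inr x) ∨
    ∃ x y : Fin r × Fin r, (grid r).Adj x y ∧ u = Sum.inr x ∧ v = Sum.inr y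

/-- no separation of order at most three has two vertices or more on both sides -/
def Q4 {V : Type} (G : SimpleGraph V) : Prop :=
  ∀ D : Set V, (nbr G D).ncard ≤ 3 → D.ncard ≤ 1 ∨ ((D ∪ nbr G D)ᶜ).ncard ≤ 1

/-- the complete graph on `S` -/
def clqs {V : Type} (S : Set V) : SimpleGraph V where
  Adj u v := u ≠ v ∧ u ∈ S ∧ v ∈ S
  symm := ⟨fun _ _ ⟨h, a, b⟩ => ⟨h.symm, b, a⟩⟩
  loopless := ⟨fun _ h => h.1 rfl⟩

/-! ## Crossing -/

/-- five disjoint connected sets off `B`, every `N i` touches `M 0` and `M 1`, four roots -/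
structure St {V : Type} (G : SimpleGraph V) (B : Set V) (x : Fin 4 → V) (N : Fin 3 → Set V)
    (M : Fin 2 → Set V) : Prop where
  cN : ∀ i, Con G (N i)
  cM : ∀ j, Con G (M j)
  dN : ∀ i j, i ≠ j → Disjoint (N i) (N j)
  dM : Disjoint (M 0) (M 1)
  dNM : ∀ i j, Disjoint (N i) (M j)
  bN : ∀ i, Disjoint (N i) B
  bM : ∀ j, Disjoint (M j) B
  t : ∀ i j, Tch G (N i) (M j)
  x0 : x 0 ∈ N 0
  x1 : x 1 ∈ N 0
  x2 : x 2 ∈ N 1
  x3 : x 3 ∈ N 2

/-- two disjoint connected sets off `B` through opposite roots -/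
def Cross {V : Type} (G : SimpleGraph V) (B : Set V) (x : Fin 4 → V) : Prop :=
  ∃ P Q : Set V, Con G P ∧ Con G Q ∧ Disjoint P Q ∧ Disjoint P B ∧ Disjoint Q B ∧
    x 0 ∈ P ∧ x 2 ∈ P ∧ x 1 ∈ Q ∧ x 3 ∈ Q

/-- [X1] cross or a small cut -/
def CrossStmt : Prop :=
  ∀ (V : Type) [Finite V] (G : SimpleGraph V) (B : Set V) (x : Fin 4 → V) (N : Fin 3 → Set V)
    (M : Fin 2 → Set V), St G B x N M → Cross G B x ∨
    ∃ S D : Set V, S.ncard ≤ 3 ∧ M 0 ∪ M 1 ⊆ D ∧ Disjoint D B ∧ Disjoint S B ∧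
      (∀ i, x i ∉ D) ∧ nbr G D ⊆ S ∪ B

/-! ## Behind three vertices -/

/-- [X2] the other side of a 3-cut, with the triangle, is a minor -/
def TorsoStmt : Prop :=
  ∀ (V : Type) [Finite V] (G : SimpleGraph V) (D : Set V), Conn3 G → (nbr G D).ncard = 3 →
    2 ≤ D.ncard → ((D ∪ nbr G D)ᶜ).Nonempty →
    IsMinor ((G ⊔ clqs (nbr G D)).induce Dᶜ) G

/-! ## The blocks of the grid -/

/-- first row and column of the block `k` -/
def bs (r k : ℕ) : ℕ := 5 + k * (r + 6)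

/-- size of the large grid -/
def RX (r : ℕ) : ℕ := 10 + 64 * (r + 6)

/-- positions -/
abbrev Pos (r : ℕ) := Fin (RX r) × Fin (RX r)

/-- the block `k` (size `r + 2`) -/
def blkX (r : ℕ) (k : Fin 64) : Set (Pos r) :=
  {x | bs r k.val ≤ x.1.val ∧ x.1.val < bs r k.val + (r + 2) ∧ bs r k.val ≤ x.2.val ∧
    x.2.val < bs r k.val + (r + 2)}

/-- the four roots around the block `k`: right, bottom, left, top -/
def rootX (r : ℕ) (k : Fin 64) (i : Fin 4) (x : Pos r) : Prop :=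
  (i = 0 ∧ x.1.val = bs r k.val + 1 ∧ x.2.val = bs r k.val + (r + 2)) ∨
  (i = 1 ∧ x.1.val = bs r k.val + (r + 2) ∧ x.2.val = bs r k.val + 1) ∨
  (i = 2 ∧ x.1.val = bs r k.val + 1 ∧ x.2.val + 1 = bs r k.val) ∨
  (i = 3 ∧ x.1.val + 1 = bs r k.val ∧ x.2.val = bs r k.val + 1)

/-- the lines from the roots to the right, down, to the left, up -/
def linX (r : ℕ) (k : Fin 64) (i : Fin 4) : Set (Pos r) :=
  {x | (i = 0 ∧ x.1.val = bs r k.val + 1 ∧ bs r k.val + (r + 2) ≤ x.2.val) ∨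
    (i = 1 ∧ bs r k.val + (r + 2) ≤ x.1.val ∧ x.2.val = bs r k.val + 1) ∨
    (i = 2 ∧ x.1.val = bs r k.val + 1 ∧ x.2.val < bs r k.val) ∨
    (i = 3 ∧ x.1.val < bs r k.val ∧ x.2.val = bs r k.val + 1)}

/-- the four arcs on the boundary of the block: last column, last row, first column, first row -/
def arcX (r : ℕ) (k : Fin 64) (i : Fin 4) : Set (Pos r) :=
  {x | x ∈ blkX r k ∧
    ((i = 0 ∧ x.2.val = bs r k.val + (r + 1) ∧ x.1.val < bs r k.val + (r + 1)) ∨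
    (i = 1 ∧ x.1.val = bs r k.val + (r + 1) ∧ bs r k.val < x.2.val) ∨
    (i = 2 ∧ x.2.val = bs r k.val ∧ bs r k.val < x.1.val) ∨
    (i = 3 ∧ x.1.val = bs r k.val ∧ x.2.val < bs r k.val + (r + 1)))}

/-- [X5a] geometry at one block -/
structure Geo (r : ℕ) (k : Fin 64) (x : Fin 4 → Pos r) (inn : Fin r × Fin r → Pos r) : Prop where
  root : ∀ i, rootX r k i (x i)
  lin_conn : ∀ i, ((grid (RX r)).induce (linX r k i)).Connected
  lin_root : ∀ i, x i ∈ linX r k i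
  lin_disj : ∀ i j, i ≠ j → Disjoint (linX r k i) (linX r k j)
  lin_blk : ∀ i l, Disjoint (linX r k i) (blkX r l)
  lin_end : (∃ p ∈ linX r k 0, p.2.val + 1 = RX r) ∧ (∃ p ∈ linX r k 1, p.1.val + 1 = RX r) ∧
    (∃ p ∈ linX r k 2, p.2.val = 0) ∧ ∃ p ∈ linX r k 3, p.1.val = 0
  arc_conn : ∀ i, ((grid (RX r)).induce (arcX r k i)).Connected
  arc_disj : ∀ i j, i ≠ j → Disjoint (arcX r k i) (arcX r k j)
  arc_root : ∀ i, ∃ p ∈ arcX r k i, (grid (RX r)).Adj (x i) p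
  inn_inj : Function.Injective inn
  inn_adj : ∀ p q, (grid r).Adj p q → (grid (RX r)).Adj (inn p) (inn q)
  inn_blk : ∀ p, inn p ∈ blkX r k
  inn_arc : ∀ p i, inn p ∉ arcX r k i
  inn_0 : ∀ p : Fin r × Fin r, p.2.val + 1 = r → ∃ q ∈ arcX r k 0, (grid (RX r)).Adj (inn p) q
  inn_1 : ∀ p : Fin r × Fin r, p.1.val + 1 = r → ∃ q ∈ arcX r k 1, (grid (RX r)).Adj (inn p) q
  inn_2 : ∀ p : Fin r × Fin r, p.2.val = 0 → ∃ q ∈ arcX r k 2, (grid (RX r)).Adj (inn p) q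
  inn_3 : ∀ p : Fin r × Fin r, p.1.val = 0 → ∃ q ∈ arcX r k 3, (grid (RX r)).Adj (inn p) q

def GeoStmt : Prop :=
  ∀ r : ℕ, 2 ≤ r → ∀ k : Fin 64, ∃ (x : Fin 4 → Pos r) (inn : Fin r × Fin r → Pos r),
    Geo r k x inn

/-- [X5b] blocks are connected, disjoint, have three positions -/
def BlocksStmt : Prop :=
  ∀ r : ℕ, 2 ≤ r → (∀ k, ((grid (RX r)).induce (blkX r k)).Connected) ∧
    (∀ k l, k ≠ l → Disjoint (blkX r k) (blkX r l)) ∧ ∀ k, 3 ≤ (blkX r k).ncard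

/-- [X4] three positions do not separate the block `l` from all four roots of the block `k` -/
def SepStmt : Prop :=
  ∀ (r : ℕ), 2 ≤ r → ∀ k l : Fin 64, k ≠ l → ∀ T : Set (Pos r), T.ncard ≤ 3 →
    Disjoint T (blkX r l) → ∃ (i : Fin 4) (Z : Set (Pos r)),
      ((grid (RX r)).induce Z).Connected ∧ (∀ x, rootX r k i x → x ∈ Z) ∧ (∃ x, rootX r k i x) ∧
      (Z ∩ blkX r l).Nonempty ∧ Disjoint Z (blkX r k) ∧ Disjoint Z T

/-- union of branch sets -/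
def UY {V I : Type} (Y : I → Set V) (Z : Set I) : Set V := ⋃ p ∈ Z, Y p

/-- [X5] a cross around a block gives `TX r` -/
def CrossTXStmt : Prop :=
  ∀ (V : Type) (G : SimpleGraph V) (r : ℕ) (k : Fin 64) (x : Fin 4 → Pos r)
    (inn : Fin r × Fin r → Pos r) (Y : Pos r → Set V) (v : Fin 4 → V), 2 ≤ r → Geo r k x inn →
    (∀ p, Con G (Y p)) → (∀ p q, p ≠ q → Disjoint (Y p) (Y q)) →
    (∀ p q, (grid (RX r)).Adj p q → Tch G (Y p) (Y q)) →
    (∀ i, ∃ u ∈ UY Y (arcX r k i), G.Adj (v i) u) → Cross G (UY Y (blkX r k)) v →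
    IsMinor (TX r) G

/-- [X6] eight of sixty-four -/
def IndStmt : Prop := ∀ f : Fin 64 → Set (Fin 64), (∀ k, (f k).ncard ≤ 3) →
  ∃ g : Fin 8 → Fin 64, Function.Injective g ∧ ∀ i j, i ≠ j → g j ∉ f (g i)

/-- [X7] uncrossing -/
def Unc8Stmt : Prop := ∀ (V : Type) [Finite V] (G : SimpleGraph V) (B S D : Fin 8 → Set V)
  (M : Set V), Conn3 G → Q4 G → (∀ i, (S i).ncard ≤ 3) → (∀ i j, i ≠ j → Disjoint (B i) (B j)) →
    (∀ i j, Disjoint (S i) (B j)) → (∀ i j, Disjoint (D i) (B j)) →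
    (∀ i, nbr G (D i) ⊆ S i ∪ B i) → (∀ i, M ⊆ D i) → 2 ≤ M.ncard →
    (∀ i, 3 ≤ (B i).ncard) → False

/-- [X9] the core -/
def CoreStmt : Prop := ∀ r : ℕ, 2 ≤ r → ∀ (V : Type) [Finite V] (G : SimpleGraph V), Conn3 G →
  Q4 G → IsMinor (H830.Q (RX r)) G → IsMinor (TX r) G

/-- [XS] 3-connected, `Q4`, no minor `TX r`: plane or of bounded treewidth -/
def PieceStmt : Prop := ∀ r : ℕ, 2 ≤ r → ∃ w : ℕ, ∀ (V : Type) [Finite V] (G : SimpleGraph V),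
  Conn3 G → Q4 G → ¬ IsMinor (TX r) G →
    (¬ IsMinor K33 G ∧ ¬ IsMinor K5g G) ∨ TreewidthLE G w

/-- [X3] the structure theorem -/
def StructXStmt : Prop := ∀ r : ℕ, 2 ≤ r → ∃ w : ℕ, ∀ (V : Type) [Finite V] (G : SimpleGraph V),
  ¬ IsMinor (TX r) G → ∃ (H : SimpleGraph V) (n : ℕ) (B : ℕ → Set V), G ≤ H ∧ Glued 3 H n B ∧
    ∀ t < n, (¬ IsMinor K33 (H.induce (B t)) ∧ ¬ IsMinor K5g (H.induce (B t))) ∨
      TreewidthLE (H.induce (B t)) w

end Vale.Agent.P235.XC
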