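import Vale.Agent.P235.H134.Grid.Defs

set_option autoImplicit false

namespace Vale.Agent.P235.XC

open SimpleGraph Vale.Agent.P235.H134

/-- The `r × r` grid and two more vertices: `inl 0` is joined to the first and the last row, `inl 1`
to the first and the last column. -/
def CrossGrid (r : ℕ) : SimpleGraph (Fin 2 ⊕ (Fin r × Fin r)) :=
  SimpleGraph.fromRel fun u v =>
    (∃ x : Fin r × Fin r, (x.1.val = 0 ∨ x.1.val + 1 = r) ∧ u = Sum.inl 0 ∧ v = Sum.inr x) ∨
    (∃ x : Fin r × Fin r, (x.2.val = 0 ∨ x.2.val + 1 = r) ∧ u = Sum.inl 1 ∧ v = Sum.inr x) ∨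
    ∃ x y : Fin r × Fin r, (grid r).Adj x y ∧ u = Sum.inr x ∧ v = Sum.inr y

end Vale.Agent.P235.XC
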